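import Vale.Agent.P235.Main

/-! # P235: deleting `k` vertices costs `O(log k)` in `ℓ₁` distortion -/

open Finset

namespace Vale.Agent.Results.P235.ApexL1Embedding

/-- If deleting a nonempty set `A` of vertices leaves a forest, then every weighted shortest-path
metric of the graph embeds in `ℓ₁` with distortion `O(log |A| + 1)`; more generally, if every
component left over maps into `ℓ₁` without expanding its edges and shrinking no distance of the
whole graph by more than `β`, the distortion is `O(β + log |A| + 1)`. -/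
theorem result : ∃ C : ℝ, ∀ (V : Type) [Fintype V] (G : SimpleGraph V) (ℓ : Sym2 V → ℝ),
    G.Connected → (∀ e ∈ G.edgeSet, 0 < ℓ e) → ∀ A : Finset V, A.Nonempty →
      ((G.induce {v | v ∉ A}).IsAcyclic →
        ∃ (N : ℕ) (f : V → Fin N → ℝ), ∀ x y : V,
          (⨅ w : G.Walk x y, (w.edges.map ℓ).sum) ≤ ∑ i, |f x i - f y i| ∧
          ∑ i, |f x i - f y i| ≤ C * (Real.log A.card + 1) * ⨅ w : G.Walk x y, (w.edges.map ℓ).sum) ∧
      (∀ (β : ℝ), 1 ≤ β → ∀ (M : ℕ) (h : V → Fin M → ℝ),
        (∀ u v, G.Adj u v → u ∉ A → v ∉ A → ∑ i, |h u i - h v i| ≤ ℓ s(u, v)) →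
        (∀ (x y : V) (p : G.Walk x y), (∀ v ∈ p.support, v ∉ A) →
          (⨅ w : G.Walk x y, (w.edges.map ℓ).sum) ≤ β * ∑ i, |h x i - h y i|) →
        ∃ (N : ℕ) (f : V → Fin N → ℝ), ∀ x y : V,
          (⨅ w : G.Walk x y, (w.edges.map ℓ).sum) ≤ ∑ i, |f x i - f y i| ∧
          ∑ i, |f x i - f y i| ≤ C * (β + Real.log A.card + 1) *
            ⨅ w : G.Walk x y, (w.edges.map ℓ).sum) := by
  refine ⟨1000000, ?_⟩
  intro V _ G ℓ hG hℓ A hA
  classical
  open Vale.Agent.P235 in
  constructor
  · intro hac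
    obtain ⟨h, hh1, hh2⟩ := forest_embedding (avoid_acyclic hac)
      (fun e he => hℓ e (SimpleGraph.edgeSet_mono (avoid_le G A) he))
    obtain ⟨N, f, hf⟩ := apex_embedding hG hℓ hA le_rfl h
      (fun u v huv hu hv => hh1 u v ⟨huv, hu, hv⟩)
      (fun x y _ hxy => by
        obtain ⟨w, hw⟩ := hh2 x y hxy
        rw [one_mul]
        refine le_trans ?_ hw
        simpa [wlen, SimpleGraph.Walk.edges_mapLe_eq_edges] using
          gdist_le_wlen hℓ (w.mapLe (avoid_le G A)))
    refine ⟨N, f, fun x y => ⟨(hf x y).1, (hf x y).2.trans ?_⟩⟩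
    have h1 := gdist_nonneg hℓ x y
    have h2 := Real.log_natCast_nonneg A.card
    show _ ≤ 1000000 * (Real.log A.card + 1) * gdist G ℓ x y
    apply mul_le_mul_of_nonneg_right _ h1
    linarith
  · intro β hβ M h hlip hlow
    obtain ⟨N, f, hf⟩ := apex_embedding hG hℓ hA hβ h (fun u v huv hu hv => hlip u v huv hu hv)
      (fun x y hx hxy => by
        obtain ⟨w⟩ := hxy
        refine hlow x y (w.mapLe (avoid_le G A)) fun v hv => ?_
        simp only [SimpleGraph.Walk.support_map, List.mem_map] at hv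
        obtain ⟨v', hv', rfl⟩ := hv
        exact avoid_support hx w v' hv')
    refine ⟨N, f, fun x y => ⟨(hf x y).1, (hf x y).2.trans ?_⟩⟩
    have h1 := gdist_nonneg hℓ x y
    have h2 := Real.log_natCast_nonneg A.card
    show _ ≤ 1000000 * (β + Real.log A.card + 1) * gdist G ℓ x y
    apply mul_le_mul_of_nonneg_right _ h1
    linarith

end Vale.Agent.Results.P235.ApexL1Embedding
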