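import Vale.Agent.P235.Star

/-! # P235: bounded `c₁` survives gluing pieces along at most `k` vertices -/

open Finset

namespace Vale.Agent.Results.P235.StarCliqueSum

/-- A core `A` embedding with distortion `α` in the metric of the graph, with pieces attached along
at most `k` core vertices each and embedding with distortion `β`, gives distortion
`O(β + α (k+1))`. -/
theorem result : ∃ C : ℝ, ∀ (V : Type) [Fintype V] (G : SimpleGraph V) (ℓ : Sym2 V → ℝ),
    G.Connected → (∀ e ∈ G.edgeSet, 0 < ℓ e) →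
    ∀ (A : Finset V) (k : ℕ) (α β : ℝ) (M : ℕ) (g h : V → Fin M → ℝ),
      A.Nonempty → 1 ≤ α → 1 ≤ β →
      let d : V → V → ℝ := fun x y => ⨅ w : G.Walk x y, (w.edges.map ℓ).sum
      (∀ a ∈ A, ∀ b ∈ A, ∑ i, |g a i - g b i| ≤ d a b ∧ d a b ≤ α * ∑ i, |g a i - g b i|) →
      (∀ u v, G.Adj u v → u ∉ A → v ∉ A → ∑ i, |h u i - h v i| ≤ ℓ s(u, v)) →
      (∀ (x y : V) (p : G.Walk x y), (∀ v ∈ p.support, v ∉ A) →
        d x y ≤ β * ∑ i, |h x i - h y i|) →
      (∀ x, x ∉ A → ∃ S : Finset V, S.card ≤ k ∧ ∀ (y a : V) (p : G.Walk x y),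
        (∀ v ∈ p.support, v ∉ A) → a ∈ A → G.Adj y a → a ∈ S) →
      ∃ (N : ℕ) (f : V → Fin N → ℝ), ∀ x y : V,
        d x y ≤ ∑ i, |f x i - f y i| ∧ ∑ i, |f x i - f y i| ≤ C * (β + α * (k + 1)) * d x y := by
  refine ⟨20000, ?_⟩
  intro V _ G ℓ hG hℓ A k α β M g h hA hα hβ d hg hlip hlow hatt
  classical
  open Vale.Agent.P235 in
  refine star_embedding hG hℓ hA hβ h hα g hg ?_ (fun u v huv hu hv => hlip u v huv hu hv)
    (fun x y hx hxy => ?_)
  · intro x hx
    obtain ⟨S, hSc, hS⟩ := hatt x hx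
    refine le_trans (Finset.card_le_card fun a ha => ?_) hSc
    obtain ⟨haA, y, hxy, hya⟩ := Finset.mem_filter.1 ha
    obtain ⟨w⟩ := hxy
    refine hS y a (w.mapLe (avoid_le G A)) (fun v hv => ?_) haA hya
    simp only [SimpleGraph.Walk.support_map, List.mem_map] at hv
    obtain ⟨v', hv', rfl⟩ := hv
    exact avoid_support hx w v' hv'
  · obtain ⟨w⟩ := hxy
    refine hlow x y (w.mapLe (avoid_le G A)) fun v hv => ?_
    simp only [SimpleGraph.Walk.support_map, List.mem_map] at hv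
    obtain ⟨v', hv', rfl⟩ := hv
    exact avoid_support hx w v' hv'

end Vale.Agent.Results.P235.StarCliqueSum
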