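import Vale.Agent.P235.Low.Main

/-! # P235: the distortion can grow linearly in the treewidth -/

open MeasureTheory

namespace Vale.Agent.Results.P235.TreewidthLowerBound

/-- For every `n` there is a finite connected graph of treewidth at most `n + 5` whose shortest-path
metric (unit lengths) needs distortion at least `n` in every `L¹` space. -/
theorem result : ∀ n : ℕ, ∃ (V : Type) (_ : Fintype V) (G : SimpleGraph V), G.Connected ∧
    (∃ (ι : Type) (_ : Fintype ι) (T : SimpleGraph ι) (B : ι → Finset V), T.IsTree ∧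
      (∀ i, (B i).card ≤ n + 6) ∧ (∀ u v, G.Adj u v → ∃ i, u ∈ B i ∧ v ∈ B i) ∧
      (∀ v, (T.induce {i | v ∈ B i}).Connected)) ∧
    ∀ (Ω : Type) (_ : MeasurableSpace Ω) (μ : Measure Ω) (f : V → Lp ℝ 1 μ) (C : ℝ),
      (∀ x y, (G.dist x y : ℝ) ≤ ‖f x - f y‖ ∧ ‖f x - f y‖ ≤ C * G.dist x y) → (n : ℝ) ≤ C := by
  intro n
  obtain ⟨m, hm⟩ : ∃ m : ℕ, m = (n + 1) / 2 := ⟨_, rfl⟩
  have h1 : (0 : ℝ) < (m : ℝ) + 1 := by positivity
  obtain ⟨γ, hγ⟩ : ∃ γ : ℝ, γ = 2 - 1 / ((m : ℝ) + 1) := ⟨_, rfl⟩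
  have h2 : 1 / ((m : ℝ) + 1) ≤ 1 := by
    rw [div_le_one h1]; linarith [Nat.cast_nonneg (α := ℝ) m]
  have h3 : 0 < 1 / ((m : ℝ) + 1) := by positivity
  obtain ⟨N, hN, ⟨P⟩⟩ := Vale.Agent.P235.Low.exists_hard (γ := γ) (by linarith) (by linarith) m
  obtain ⟨ι, hι, T, B, hT, hB, hE, hv⟩ := Vale.Agent.P235.Low.td_tree P
  refine ⟨N.V, inferInstance, N.graph, N.connected,
    ⟨ι, hι, T, B, hT, fun i => (hB i).trans (by omega), hE, hv⟩, fun Ω _ μ f C hf => ?_⟩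
  refine le_trans ?_ (Vale.Agent.P235.Low.hard_graph hN Ω μ f C hf)
  have hn : (n : ℝ) ≤ 2 * m := by exact_mod_cast (show n ≤ 2 * m by omega)
  have h4 : (1 / ((m : ℝ) + 1)) * m ≤ 1 := by
    rw [div_mul_eq_mul_div, one_mul, div_le_one h1]; linarith
  rw [hγ, sub_mul]
  linarith

end Vale.Agent.Results.P235.TreewidthLowerBound
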